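import Vale.Agent.P092GB.Main
import Vale.Agent.P092GH.HM
import Vale.Agent.P092CP.L2

/-!
P092 (helper20): Moore sets from the Howe-Moore property; ergodicity of the panel radicals.
-/

set_option linter.all false

open Filter Topology MeasureTheory

namespace Vale.Agent.P092BL

open Vale.Agent.P092.RC (Moore)
open Vale.Agent.P092.H933 (URep)
open Vale.Agent.P092.H15 (HMG)
open Vale.Agent.P092GK Vale.Agent.P092GH Vale.Agent.P092GB Vale.Agent.P092MG Vale.Agent.P092CP

variable {G : Type} [Group G] [TopologicalSpace G] [IsTopologicalGroup G]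

/-- a set which contains elements tending to infinity is a Moore set -/
theorem moore_of (hG : HMG G) {ι : Type} {l : Filter ι} [l.NeBot] {b : ι → G}
    (hb : Tendsto b l (cocompact G)) {S : Set G} (hS : ∀ n, b n ∈ S) : Moore S := by
  intro E _ _ _ u h1 h2 ξ h3 g
  have hσ : URep u := ⟨h1, fun η => by simpa using (h2 η).tendsto 1⟩
  have hf := hσ.len ξ
  refine sub_eq_zero.1 (norm_eq_zero.1 (hG ((Ultrafilter.of l).map b)
    (hb.mono_left (Ultrafilter.of_le l)) _ hf ?_ g))
  rintro g ⟨γ, a1, a2⟩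
  refine len_lim hf a1 ((hf.cont.comp a2).congr' (mem_map.2 (Eventually.of_forall fun n => ?_)))
  have a3 : b n ∈ hf.ker := show ‖u (b n) ξ - ξ‖ = 0 by rw [h3 _ (hS n), sub_self, norm_zero]
  simpa using hf.conj (inv_mem a3) (γ (b n))

variable {k : Type} [NontriviallyNormedField k] [ProperSpace k] [T2Space G] {r : ℕ} {F : FlD k G r}
  {s : Fin r → G} {N : ℕ} {τ : ℕ → Fin r} {w : ℕ → G}

theorem moore_U (hG : HMG G) (h : Fl F) (hp : Pan F s N τ w) {θ : Finset (Fin r)}
    (hθ : θ.Nonempty) : Moore (F.U θ : Set G) := by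
  obtain ⟨j, hj⟩ := hθ
  obtain ⟨u, h1, h2⟩ := exists_U h hp j
  exact moore_of hG (U_cocompact h h1 h2) fun n => h.U_mono (Finset.singleton_subset_iff.2 hj) (by
    exact h.U_conj (pow_mem (h.z_mem_L (h.bZ j) _) n) h1)

theorem moore_U' (hG : HMG G) (h : Fl F) (hp : Pan F s N τ w) {θ : Finset (Fin r)}
    (hθ : θ.Nonempty) : Moore (F.U' θ : Set G) := by
  obtain ⟨j, hj⟩ := hθ
  obtain ⟨u, h1, h2⟩ := exists_U' h hp j
  exact moore_of hG (U'_cocompact h h1 h2) fun n => h.U'_mono (Finset.singleton_subset_iff.2 hj) (by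
    simpa using h.U'_conj (inv_mem (pow_mem (h.z_mem_L (h.bZ j) _) n)) h1)

theorem moore_z (hG : HMG G) (h : Fl F) {z : G} (hz : z ∈ F.Z) (hl : F.ℓ z ≠ 0) {S : Set G}
    (hS : ∀ n : ℕ, z ^ n ∈ S) : Moore S := moore_of hG (pow_cocompact h hz hl) hS

theorem erase_ne (hr : 2 ≤ r) (i : Fin r) : (Finset.univ.erase i).Nonempty :=
  Finset.card_pos.1 (by rw [Finset.card_erase_of_mem (Finset.mem_univ _)]; simp; omega)

variable {G' K : Type} [LocallyCompactSpace G] [SecondCountableTopology G] [MeasurableSpace G]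
  [BorelSpace G] [Group G'] [TopologicalSpace G'] [IsTopologicalGroup G'] [LocallyCompactSpace G']
  [SecondCountableTopology G'] [T2Space G'] [MeasurableSpace G'] [BorelSpace G']
  [NormedAddCommGroup K] [InnerProductSpace ℂ K] [CompleteSpace K] {μ : Measure G}
  [μ.IsHaarMeasure] {μ' : Measure G'} [μ'.IsHaarMeasure] {W : Set (K →L[ℂ] K)}

theorem erg_of (C : Cpl μ μ' W) {S : Subgroup G} (h : Moore (S : Set G)) : Erg C S :=
  fun _ hT e => C.erg h hT e

theorem erg_m (C : Cpl μ μ' W) (hG : HMG G) (h : Fl F) (hp : Pan F s N τ w) (hr : 2 ≤ r)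
    (i : Fin r) : Erg C (Em F s i).I := erg_of C (moore_U' hG h hp (erase_ne hr i))

theorem erg_p (C : Cpl μ μ' W) (hG : HMG G) (h : Fl F) (hp : Pan F s N τ w) (hr : 2 ≤ r)
    (i : Fin r) : Erg C (Ep F s i).I := erg_of C (moore_U hG h hp (erase_ne hr i))

end Vale.Agent.P092BL
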